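import Vale.Agent.Lib.Degree.NullLag
import Mathlib.Geometry.Manifold.SmoothApprox
import Mathlib.MeasureTheory.Integral.IntervalIntegral.FundThmCalculus
import Mathlib.Topology.Algebra.Module.Determinant

/-! The Brouwer degree of a continuous map on a bounded open set, as a normalised integral. -/

open MeasureTheory Set Filter Topology

set_option linter.unusedSectionVars false

namespace Vale.Agent.Lib.Degree

variable {ι : Type} [Fintype ι] [DecidableEq ι]

noncomputable def bb (s : ℝ) : ℝ := max 0 (1 - s ^ 2)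

noncomputable def beta (s : ℝ) : ℝ := ∫ u in (0 : ℝ)..s, bb u

theorem continuous_bb : Continuous bb := by unfold bb; fun_prop

theorem hasDerivAt_beta (s : ℝ) : HasDerivAt beta (bb s) s :=
  intervalIntegral.integral_hasDerivAt_right (continuous_bb.intervalIntegrable _ _)
    (continuous_bb.stronglyMeasurableAtFilter _ _) continuous_bb.continuousAt

theorem contDiff_beta : ContDiff ℝ 1 beta := by
  rw [contDiff_one_iff_deriv]
  refine ⟨fun s => (hasDerivAt_beta s).differentiableAt, ?_⟩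
  have : deriv beta = bb := funext fun s => (hasDerivAt_beta s).deriv
  rw [this]
  exact continuous_bb

noncomputable def phi (y : ι → ℝ) : ℝ := ∏ i, bb (y i)

noncomputable def TT (y : ι → ℝ) : ι → ℝ := fun i => beta (y i)

theorem contDiff_TT : ContDiff ℝ 1 (TT : (ι → ℝ) → (ι → ℝ)) :=
  contDiff_pi.2 fun i => contDiff_beta.comp (contDiff_apply ℝ ℝ i)

theorem det_fderiv_TT (y : ι → ℝ) : (fderiv ℝ (TT : (ι → ℝ) → (ι → ℝ)) y).det = phi y := by
  have h : HasFDerivAt (TT : (ι → ℝ) → (ι → ℝ))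
      (ContinuousLinearMap.pi fun i =>
        (bb (y i) • ContinuousLinearMap.id ℝ ℝ).comp (ContinuousLinearMap.proj i)) y := by
    refine hasFDerivAt_pi.2 fun i => ?_
    have := (hasDerivAt_beta (y i)).hasFDerivAt.comp y (hasFDerivAt_apply (𝕜 := ℝ) i y)
    refine HasFDerivAt.congr_fderiv this ?_
    ext v
    simp [mul_comm]
  rw [h.fderiv, ContinuousLinearMap.det_pi]
  refine Finset.prod_congr rfl fun i _ => ?_
  simp [ContinuousLinearMap.det]

theorem continuous_phi : Continuous (phi : (ι → ℝ) → ℝ) :=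
  continuous_finsetProd _ fun i _ => continuous_bb.comp (continuous_apply i)

theorem phi_nonneg (y : ι → ℝ) : 0 ≤ phi y := Finset.prod_nonneg fun _ _ => le_max_left _ _

theorem phi_eq_zero {y : ι → ℝ} (hy : 1 < ‖y‖) : phi y = 0 := by
  by_contra h
  have : ‖y‖ ≤ 1 := by
    refine (pi_norm_le_iff_of_nonneg zero_le_one).2 fun i => ?_
    by_contra hi
    apply h
    refine Finset.prod_eq_zero (Finset.mem_univ i) ?_
    rw [Real.norm_eq_abs, not_le] at hi
    have : 1 < (y i) ^ 2 := by rw [← sq_abs]; nlinarith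
    exact max_eq_left (by linarith)
  linarith

noncomputable def c0 (ι : Type) [Fintype ι] : ℝ := ∫ y : ι → ℝ, phi y

theorem hasCompactSupport_phi : HasCompactSupport (phi : (ι → ℝ) → ℝ) :=
  HasCompactSupport.intro (isCompact_closedBall 0 1) fun x hx =>
    phi_eq_zero (by simpa using hx)

theorem c0_pos : 0 < c0 ι :=
  continuous_phi.integral_pos_of_hasCompactSupport_nonneg_nonzero (x := 0)
    hasCompactSupport_phi phi_nonneg (by simp [phi, bb])

noncomputable def jac (g : (ι → ℝ) → (ι → ℝ)) (x : ι → ℝ) : ℝ :=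
  phi (g x) * (fderiv ℝ g x).det

theorem jac_eq {g : (ι → ℝ) → (ι → ℝ)} (hg : ContDiff ℝ 1 g) (x : ι → ℝ) :
    jac g x = (fderiv ℝ (TT ∘ g) x).det := by
  rw [fderiv_comp x ((contDiff_TT.differentiable (by norm_num)) _)
    ((hg.differentiable (by norm_num)) x), jac, ← det_fderiv_TT]
  simp [ContinuousLinearMap.det]

theorem continuous_jac {g : (ι → ℝ) → (ι → ℝ)} (hg : ContDiff ℝ 1 g) : Continuous (jac g) :=
  (continuous_phi.comp hg.continuous).mul (continuous_det_fderiv hg)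

theorem integrableOn_of_bounded {f : (ι → ℝ) → ℝ} (hf : Continuous f) {Ω : Set (ι → ℝ)}
    (hb : Bornology.IsBounded Ω) : IntegrableOn f Ω :=
  (hf.continuousOn.integrableOn_compact hb.isCompact_closure).mono_set subset_closure

theorem integral_jac_eq {g h : (ι → ℝ) → (ι → ℝ)} (hg : ContDiff ℝ 1 g) (hh : ContDiff ℝ 1 h)
    {Ω : Set (ι → ℝ)} (ho : IsOpen Ω) (hb : Bornology.IsBounded Ω)
    (H : ∀ x ∈ frontier Ω, ∀ t ∈ Icc (0 : ℝ) 1, 1 < ‖g x + t • (h x - g x)‖) :
    ∫ x in Ω, jac g x = ∫ x in Ω, jac h x := by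
  let K : Set (ι → ℝ) := Prod.fst ''
    ((closure Ω ×ˢ Icc (0 : ℝ) 1) ∩ {p | ‖g p.1 + p.2 • (h p.1 - g p.1)‖ ≤ 1})
  have hgc := hg.continuous
  have hhc := hh.continuous
  have hK : IsCompact K := by
    refine IsCompact.image ?_ continuous_fst
    refine (hb.isCompact_closure.prod isCompact_Icc).inter_right ?_
    exact isClosed_le (by fun_prop) continuous_const
  have hKΩ : K ⊆ Ω := by
    rintro _ ⟨⟨x, t⟩, ⟨⟨hx, ht⟩, hn⟩, rfl⟩
    by_contra hxΩ
    have := H x ⟨hx, by rwa [ho.interior_eq]⟩ t ht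
    exact absurd hn (not_le.2 this)
  obtain ⟨χ, hχ, h0, h1, h01⟩ := exists_cutoff (s := Ωᶜ) (t := K) ho.isClosed_compl hK.isClosed
    (disjoint_left.2 fun x hx hx' => hx (hKΩ hx'))
  let k : (ι → ℝ) → (ι → ℝ) := fun x => g x + χ x • (h x - g x)
  have hk : ContDiff ℝ 1 k := hg.add (hχ.smul (hh.sub hg))
  have hloc : ∀ x, x ∉ Ω → k =ᶠ[𝓝 x] g := fun x hx =>
    ((eventually_nhdsSet_iff_forall.1 h0) x hx).mono fun y hy => by simp [k, hy]
  have hcs : HasCompactSupport fun x => (TT ∘ k) x - (TT ∘ g) x := by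
    refine HasCompactSupport.intro hb.isCompact_closure fun x hx => ?_
    have : k x = g x := (hloc x fun h' => hx (subset_closure h')).self_of_nhds
    simp [this]
  have hN := nullLag (contDiff_TT.comp hk) (contDiff_TT.comp hg) hcs
  simp_rw [← jac_eq hk, ← jac_eq hg] at hN
  rw [← setIntegral_eq_integral_of_forall_compl_eq_zero (s := Ω),
    integral_sub (integrableOn_of_bounded (continuous_jac hk) hb)
      (integrableOn_of_bounded (continuous_jac hg) hb), sub_eq_zero] at hN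
  · rw [← hN]
    refine setIntegral_congr_fun ho.measurableSet fun x hx => ?_
    by_cases hxK : x ∈ K
    · have e : k =ᶠ[𝓝 x] h :=
        ((eventually_nhdsSet_iff_forall.1 h1) x hxK).mono fun y hy => by simp [k, hy]
      simp only [jac, e.fderiv_eq, e.self_of_nhds]
    · have hn : ∀ t ∈ Icc (0 : ℝ) 1, 1 < ‖g x + t • (h x - g x)‖ := by
        intro t ht
        by_contra hc
        exact hxK ⟨(x, t), ⟨⟨subset_closure hx, ht⟩, not_lt.1 hc⟩, rfl⟩
      have e1 : phi (k x) = 0 := phi_eq_zero (hn _ (h01 x))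
      have e2 : phi (h x) = 0 := phi_eq_zero (by simpa using hn 1 ⟨zero_le_one, le_rfl⟩)
      simp only [jac, e1, e2, zero_mul]
  · intro x hx
    have e := hloc x hx
    simp only [jac, e.fderiv_eq, e.self_of_nhds, sub_self]

/-- `g` points strongly in the direction of `f` on `S`. -/
def Adm (g f : (ι → ℝ) → (ι → ℝ)) (S : Set (ι → ℝ)) : Prop :=
  ∀ x ∈ S, ∑ i, |f x i| < ∑ i, g x i * f x i

theorem one_lt_norm_of_lt {u w : ι → ℝ} (h : ∑ i, |w i| < ∑ i, u i * w i) : 1 < ‖u‖ := by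
  by_contra hc
  rw [not_lt] at hc
  have : ∑ i, u i * w i ≤ ∑ i, |w i| := by
    refine Finset.sum_le_sum fun i _ => ?_
    have h1 : |u i| ≤ 1 := (norm_le_pi_norm u i).trans hc
    calc u i * w i ≤ |u i * w i| := le_abs_self _
      _ = |u i| * |w i| := abs_mul _ _
      _ ≤ 1 * |w i| := mul_le_mul_of_nonneg_right h1 (abs_nonneg _)
      _ = |w i| := one_mul _
  linarith

theorem integral_jac_eq_of_adm {f g h : (ι → ℝ) → (ι → ℝ)} (hg : ContDiff ℝ 1 g)
    (hh : ContDiff ℝ 1 h) {Ω : Set (ι → ℝ)} (ho : IsOpen Ω) (hb : Bornology.IsBounded Ω)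
    (ag : Adm g f (frontier Ω)) (ah : Adm h f (frontier Ω)) :
    ∫ x in Ω, jac g x = ∫ x in Ω, jac h x := by
  refine integral_jac_eq hg hh ho hb fun x hx t ht => one_lt_norm_of_lt (w := f x) ?_
  have e : ∑ i, (g x + t • (h x - g x)) i * f x i =
      (1 - t) * ∑ i, g x i * f x i + t * ∑ i, h x i * f x i := by
    simp only [Finset.mul_sum, ← Finset.sum_add_distrib]
    refine Finset.sum_congr rfl fun i _ => ?_
    simp only [Pi.add_apply, Pi.smul_apply, Pi.sub_apply, smul_eq_mul]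
    ring
  rw [e]
  have h1 := ag x hx
  have h2 := ah x hx
  rcases eq_or_lt_of_le ht.1 with h0 | h0
  · rw [← h0]; simpa using h1
  · nlinarith [ht.2]

theorem exists_adm {W f f' : (ι → ℝ) → (ι → ℝ)} (hW : Continuous W) (hf : Continuous f)
    (hf' : Continuous f') {S : Set (ι → ℝ)} (hS : IsCompact S)
    (h1 : ∀ x ∈ S, 0 < ∑ i, W x i * f x i) (h2 : ∀ x ∈ S, 0 < ∑ i, W x i * f' x i) :
    ∃ g : (ι → ℝ) → (ι → ℝ), ContDiff ℝ 1 g ∧ Adm g f S ∧ Adm g f' S := by
  have bound : ∀ f : (ι → ℝ) → (ι → ℝ), Continuous f → (∀ x ∈ S, 0 < ∑ i, W x i * f x i) →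
      ∃ l : ℝ, ∀ l' ≥ l, ∀ x ∈ S, 2 * ∑ i, |f x i| < l' * ∑ i, W x i * f x i := by
    intro f hf h
    have hc : ContinuousOn (fun x => (2 * ∑ i, |f x i|) / ∑ i, W x i * f x i) S :=
      ContinuousOn.div (by fun_prop) (by fun_prop) fun x hx => (h x hx).ne'
    obtain ⟨C, hC⟩ := hS.bddAbove_image hc
    refine ⟨C + 1, fun l' hl' x hx => ?_⟩
    have := hC ⟨x, hx, rfl⟩
    rw [div_le_iff₀ (h x hx)] at this
    nlinarith [h x hx]
  obtain ⟨l1, hl1⟩ := bound f hf h1
  obtain ⟨l2, hl2⟩ := bound f' hf' h2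
  obtain ⟨g, hg, hga, -⟩ := (hW.const_smul (max l1 l2)).exists_contDiff_approx 1
    (ε := fun _ => 1) continuous_const fun _ => one_pos
  have fin : ∀ f : (ι → ℝ) → (ι → ℝ),
      (∀ x ∈ S, 2 * ∑ i, |f x i| < max l1 l2 * ∑ i, W x i * f x i) → Adm g f S := by
    intro f h x hx
    have h3 : max l1 l2 * ∑ i, W x i * f x i - ∑ i, |f x i| ≤ ∑ i, g x i * f x i := by
      rw [Finset.mul_sum, ← Finset.sum_sub_distrib]
      refine Finset.sum_le_sum fun i _ => ?_
      have h4 : |g x i - max l1 l2 * W x i| ≤ 1 := by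
        have := (hga x).le
        rw [dist_eq_norm] at this
        simpa using (norm_le_pi_norm _ i).trans this
      have h5 : |(g x i - max l1 l2 * W x i) * f x i| ≤ |f x i| := by
        rw [abs_mul]
        exact mul_le_of_le_one_left (abs_nonneg _) h4
      have := neg_abs_le ((g x i - max l1 l2 * W x i) * f x i)
      nlinarith
    have := h x hx
    linarith
  exact ⟨g, by exact_mod_cast hg, fin f (hl1 _ (le_max_left _ _)),
    fin f' (hl2 _ (le_max_right _ _))⟩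

open Classical in
/-- The Brouwer degree at `0` of `f` on `Ω`. -/
noncomputable def deg (f : (ι → ℝ) → (ι → ℝ)) (Ω : Set (ι → ℝ)) : ℝ :=
  if h : ∃ g : (ι → ℝ) → (ι → ℝ), ContDiff ℝ 1 g ∧ Adm g f (frontier Ω) then
    (∫ x in Ω, jac h.choose x) / c0 ι else 0

theorem deg_eq {f g : (ι → ℝ) → (ι → ℝ)} (hg : ContDiff ℝ 1 g) {Ω : Set (ι → ℝ)} (ho : IsOpen Ω)
    (hb : Bornology.IsBounded Ω) (ag : Adm g f (frontier Ω)) :
    deg f Ω = (∫ x in Ω, jac g x) / c0 ι := by
  have h : ∃ g : (ι → ℝ) → (ι → ℝ), ContDiff ℝ 1 g ∧ Adm g f (frontier Ω) := ⟨g, hg, ag⟩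
  rw [deg, dif_pos h, integral_jac_eq_of_adm h.choose_spec.1 hg ho hb h.choose_spec.2 ag]

theorem isCompact_frontier {Ω : Set (ι → ℝ)} (hb : Bornology.IsBounded Ω) :
    IsCompact (frontier Ω) :=
  hb.isCompact_closure.of_isClosed_subset isClosed_frontier frontier_subset_closure

theorem sum_sq_pos {u : ι → ℝ} (hu : u ≠ 0) : 0 < ∑ i, u i * u i := by
  obtain ⟨i, hi⟩ := Function.ne_iff.1 hu
  exact Finset.sum_pos' (fun j _ => mul_self_nonneg _) ⟨i, Finset.mem_univ i, mul_self_pos.2 hi⟩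

theorem exists_adm_self {f : (ι → ℝ) → (ι → ℝ)} (hf : Continuous f) {S : Set (ι → ℝ)}
    (hS : IsCompact S) (h : ∀ x ∈ S, f x ≠ 0) :
    ∃ g : (ι → ℝ) → (ι → ℝ), ContDiff ℝ 1 g ∧ Adm g f S := by
  obtain ⟨g, hg, h1, -⟩ := exists_adm hf hf hf hS (fun x hx => sum_sq_pos (h x hx))
    (fun x hx => sum_sq_pos (h x hx))
  exact ⟨g, hg, h1⟩

theorem aux_pos {u v : ι → ℝ} (h : ∀ t ∈ Icc (0 : ℝ) 1, u + t • (v - u) ≠ 0) :
    0 < ∑ i, (√(∑ j, v j * v j) • u + √(∑ j, u j * u j) • v) i * u i := by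
  have hu : u ≠ 0 := by simpa using h 0 ⟨le_rfl, zero_le_one⟩
  have hv : v ≠ 0 := by simpa using h 1 ⟨zero_le_one, le_rfl⟩
  set a := √(∑ j, u j * u j) with ha
  set b := √(∑ j, v j * v j) with hb
  have hap : 0 < a := Real.sqrt_pos.2 (sum_sq_pos hu)
  have hbp : 0 < b := Real.sqrt_pos.2 (sum_sq_pos hv)
  have ha2 : a * a = ∑ j, u j * u j := Real.mul_self_sqrt (sum_sq_pos hu).le
  have hb2 : b * b = ∑ j, v j * v j := Real.mul_self_sqrt (sum_sq_pos hv).le
  have hW : b • u + a • v ≠ 0 := by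
    intro h0
    apply h (a / (a + b)) ⟨by positivity, by rw [div_le_one (by positivity)]; linarith⟩
    ext i
    have := congrFun h0 i
    simp only [Pi.add_apply, Pi.smul_apply, smul_eq_mul, Pi.zero_apply, Pi.sub_apply] at this ⊢
    field_simp
    linarith
  have hp := sum_sq_pos hW
  have e1 : ∑ i, (b • u + a • v) i * (b • u + a • v) i =
      b * b * ∑ j, u j * u j + 2 * a * b * ∑ j, u j * v j + a * a * ∑ j, v j * v j := by
    simp only [Finset.mul_sum, ← Finset.sum_add_distrib]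
    refine Finset.sum_congr rfl fun i _ => ?_
    simp only [Pi.add_apply, Pi.smul_apply, smul_eq_mul]
    ring
  have e2 : ∑ i, (b • u + a • v) i * u i = b * ∑ j, u j * u j + a * ∑ j, u j * v j := by
    simp only [Finset.mul_sum, ← Finset.sum_add_distrib]
    refine Finset.sum_congr rfl fun i _ => ?_
    simp only [Pi.add_apply, Pi.smul_apply, smul_eq_mul]
    ring
  rw [e1, ← ha2, ← hb2] at hp
  rw [e2, ← ha2]
  have : 0 < 2 * b * (b * (a * a) + a * ∑ j, u j * v j) := by nlinarith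
  exact (mul_pos_iff_of_pos_left (by positivity)).1 this

theorem deg_homotopy {f f' : (ι → ℝ) → (ι → ℝ)} (hf : Continuous f) (hf' : Continuous f')
    {Ω : Set (ι → ℝ)} (ho : IsOpen Ω) (hb : Bornology.IsBounded Ω)
    (H : ∀ x ∈ frontier Ω, ∀ t ∈ Icc (0 : ℝ) 1, f x + t • (f' x - f x) ≠ 0) :
    deg f Ω = deg f' Ω := by
  obtain ⟨g, hg, h1, h2⟩ := exists_adm
    (W := fun x => √(∑ j, f' x j * f' x j) • f x + √(∑ j, f x j * f x j) • f' x)
    (by fun_prop) hf hf' (isCompact_frontier hb) (fun x hx => aux_pos (H x hx))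
    (fun x hx => by
      rw [add_comm]
      refine aux_pos fun t ht => ?_
      have := H x hx (1 - t) ⟨by linarith [ht.2], by linarith [ht.1]⟩
      convert this using 1
      ext i
      simp only [Pi.add_apply, Pi.smul_apply, smul_eq_mul, Pi.sub_apply]
      ring)
  rw [deg_eq hg ho hb h1, deg_eq hg ho hb h2]

theorem deg_rouche {f f' : (ι → ℝ) → (ι → ℝ)} (hf : Continuous f) (hf' : Continuous f')
    {Ω : Set (ι → ℝ)} (ho : IsOpen Ω) (hb : Bornology.IsBounded Ω)
    (H : ∀ x ∈ frontier Ω, ‖f' x - f x‖ < ‖f x‖) : deg f Ω = deg f' Ω := by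
  refine deg_homotopy hf hf' ho hb fun x hx t ht h0 => ?_
  have h1 : f x = -(t • (f' x - f x)) := eq_neg_of_add_eq_zero_left h0
  have h2 : ‖f x‖ ≤ ‖f' x - f x‖ := by
    conv_lhs => rw [h1]
    rw [norm_neg, norm_smul, Real.norm_eq_abs, abs_of_nonneg ht.1]
    exact mul_le_of_le_one_left (norm_nonneg _) ht.2
  linarith [H x hx]

theorem deg_congr {f f' : (ι → ℝ) → (ι → ℝ)} (hf : Continuous f) (hf' : Continuous f')
    {Ω : Set (ι → ℝ)} (ho : IsOpen Ω) (hb : Bornology.IsBounded Ω)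
    (H : ∀ x ∈ frontier Ω, f x ≠ 0) (H' : ∀ x ∈ frontier Ω, f' x = f x) : deg f Ω = deg f' Ω :=
  deg_rouche hf hf' ho hb fun x hx => by simpa [H' x hx] using H x hx

theorem deg_sum {f : (ι → ℝ) → (ι → ℝ)} (hf : Continuous f) {Ω : Set (ι → ℝ)} (ho : IsOpen Ω)
    (hb : Bornology.IsBounded Ω) {κ : Type} (s : Finset κ) (U : κ → Set (ι → ℝ))
    (hU : ∀ j ∈ s, IsOpen (U j)) (hUΩ : ∀ j ∈ s, U j ⊆ Ω)
    (hd : Set.Pairwise (s : Set κ) (Function.onFun Disjoint U))
    (H : ∀ x ∈ closure Ω, f x = 0 → ∃ j ∈ s, x ∈ U j) :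
    deg f Ω = ∑ j ∈ s, deg f (U j) := by
  have hopen : IsOpen (⋃ j ∈ s, U j) := isOpen_biUnion fun j hj => hU j hj
  let S := closure Ω \ ⋃ j ∈ s, U j
  have hS : IsCompact S := hb.isCompact_closure.diff hopen
  obtain ⟨g, hg, ag⟩ := exists_adm_self hf hS (fun x hx h0 => by
    obtain ⟨j, hj, hxj⟩ := H x hx.1 h0
    exact hx.2 (mem_iUnion₂.2 ⟨j, hj, hxj⟩))
  have hsub : (⋃ j ∈ s, U j) ⊆ Ω := iUnion₂_subset hUΩ
  have a0 : Adm g f (frontier Ω) := fun x hx =>
    ag x ⟨hx.1, fun h => hx.2 (by rw [ho.interior_eq]; exact hsub h)⟩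
  have aj : ∀ j ∈ s, Adm g f (frontier (U j)) := by
    intro j hj x hx
    refine ag x ⟨closure_mono (hUΩ j hj) hx.1, fun h => ?_⟩
    obtain ⟨k, hk, hxk⟩ := mem_iUnion₂.1 h
    by_cases hjk : j = k
    · subst hjk
      exact hx.2 (by rwa [(hU j hj).interior_eq])
    · have hdis : Disjoint (U j) (U k) := hd hj hk hjk
      exact disjoint_left.1 (hdis.closure_left (hU k hk)) hx.1 hxk
  rw [deg_eq hg ho hb a0, Finset.sum_congr rfl fun j hj =>
    deg_eq hg (hU j hj) (hb.subset (hUΩ j hj)) (aj j hj), ← Finset.sum_div,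
    ← integral_biUnion_finset s (fun j hj => (hU j hj).measurableSet) hd
      (fun j hj => integrableOn_of_bounded (continuous_jac hg) (hb.subset (hUΩ j hj)))]
  congr 1
  refine setIntegral_eq_of_subset_of_forall_sdiff_eq_zero ho.measurableSet hsub fun x hx => ?_
  rw [jac, phi_eq_zero (one_lt_norm_of_lt (ag x ⟨subset_closure hx.1, hx.2⟩)), zero_mul]

theorem deg_excision {f : (ι → ℝ) → (ι → ℝ)} (hf : Continuous f) {Ω U : Set (ι → ℝ)}
    (ho : IsOpen Ω) (hb : Bornology.IsBounded Ω) (hU : IsOpen U) (hUΩ : U ⊆ Ω)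
    (H : ∀ x ∈ closure Ω, f x = 0 → x ∈ U) : deg f Ω = deg f U := by
  have := deg_sum hf ho hb (κ := Unit) {()} (fun _ => U) (fun _ _ => hU) (fun _ _ => hUΩ)
    (by simp) (fun x hx h0 => ⟨(), by simp, H x hx h0⟩)
  simpa using this

theorem exists_zero_of_deg_ne_zero {f : (ι → ℝ) → (ι → ℝ)} (hf : Continuous f)
    {Ω : Set (ι → ℝ)} (ho : IsOpen Ω) (hb : Bornology.IsBounded Ω) (h : deg f Ω ≠ 0) :
    ∃ x ∈ closure Ω, f x = 0 := by
  by_contra hc
  apply h
  have := deg_sum hf ho hb (κ := Unit) ∅ (fun _ => ∅) (by simp) (by simp) (by simp)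
    (fun x hx h0 => (hc ⟨x, hx, h0⟩).elim)
  simpa using this

end Vale.Agent.Lib.Degree
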