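import Vale.Agent.Lib.Degree.Count
import Mathlib.Analysis.Calculus.BumpFunction.FiniteDimension

/-! The theorem of Borsuk: an odd map has odd degree on a ball. -/

open MeasureTheory Set Filter Topology

set_option linter.unusedSectionVars false

namespace Vale.Agent.Lib.Degree

variable {ι : Type} [Fintype ι] [DecidableEq ι]

theorem odd_ncard_of_symm {Z : Set (ι → ℝ)} (hfin : Z.Finite) (h0 : (0 : ι → ℝ) ∈ Z)
    (hs : ∀ x ∈ Z, -x ∈ Z) : Odd Z.ncard := by
  classical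
  have hsum : ∑ _x ∈ hfin.toFinset.erase 0, (1 : ZMod 2) = 0 := by
    refine Finset.sum_involution (fun x _ => -x) (fun _ _ => by decide) ?_ ?_ ?_
    · intro x hx _ hneg
      apply (Finset.mem_erase.1 hx).1
      have : (2 : ℝ) • x = 0 := by rw [two_smul]; nth_rewrite 1 [← hneg]; simp
      simpa using this
    · intro x hx
      rw [Finset.mem_erase] at hx ⊢
      exact ⟨neg_ne_zero.2 hx.1, hfin.mem_toFinset.2 (hs x (hfin.mem_toFinset.1 hx.2))⟩
    · intro x _
      simp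
  rw [Finset.sum_const, nsmul_eq_mul, mul_one, ZMod.natCast_eq_zero_iff_even] at hsum
  rw [Set.ncard_eq_toFinset_card Z hfin,
    ← Finset.card_erase_add_one (hfin.mem_toFinset.2 h0)]
  exact hsum.add_one

theorem borsuk_step {f g : (ι → ℝ) → (ι → ℝ)} (hf : Continuous f) {S : Set (ι → ℝ)}
    (hS : IsCompact S) (s : Finset ι) (k : ι) (hg : ContDiff ℝ 1 g) (hodd : ∀ x, g (-x) = -g x)
    (h0 : (fderiv ℝ g 0).det ≠ 0) (hcl : ∀ x ∈ S, ‖g x - f x‖ < ‖f x‖)
    (hreg : ∀ x, g x = 0 → (∃ i ∈ s, x i ≠ 0) → (fderiv ℝ g x).det ≠ 0) :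
    ∃ g' : (ι → ℝ) → (ι → ℝ), ContDiff ℝ 1 g' ∧ (∀ x, g' (-x) = -g' x) ∧
      (fderiv ℝ g' 0).det ≠ 0 ∧ (∀ x ∈ S, ‖g' x - f x‖ < ‖f x‖) ∧
      ∀ x, g' x = 0 → (∃ i ∈ insert k s, x i ≠ 0) → (fderiv ℝ g' x).det ≠ 0 := by
  have hgc := hg.continuous
  obtain ⟨δ, hδ, hδS⟩ := hS.exists_forall_le' (f := fun x => ‖f x‖ - ‖g x - f x‖) (a := 0)
    (by fun_prop) fun x hx => sub_pos.2 (hcl x hx)
  obtain ⟨C, hC⟩ := hS.bddAbove_image (f := fun x : ι → ℝ => |x k ^ 3|) (by fun_prop)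
  let h : (ι → ℝ) → (ι → ℝ) := fun x => (x k ^ 3)⁻¹ • g x
  have hc3 : ∀ x : ι → ℝ, HasFDerivAt (fun x : ι → ℝ => x k ^ 3)
      ((3 * x k ^ 2) • (ContinuousLinearMap.proj k : (ι → ℝ) →L[ℝ] ℝ)) x := by
    intro x
    have := (hasFDerivAt_apply (𝕜 := ℝ) k x).pow 3
    simpa using this
  have hdh : ∀ x ∈ {x : ι → ℝ | x k ≠ 0}, DifferentiableAt ℝ h x := fun x hx =>
    ((hc3 x).differentiableAt.inv (pow_ne_zero 3 hx)).smul ((hg.differentiable (by norm_num)) x)
  obtain ⟨y, hy, hyC⟩ := exists_not_mem_of_null (η := δ / (|C| + 1)) (sard hdh) (by positivity)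
  let g' : (ι → ℝ) → (ι → ℝ) := fun x => g x - (x k ^ 3) • y
  have hflat : ∀ x : ι → ℝ, x k = 0 → fderiv ℝ g' x = fderiv ℝ g x := by
    intro x hx
    have := ((hg.differentiable (by norm_num)) x).hasFDerivAt.sub ((hc3 x).smul_const y)
    refine this.fderiv.trans ?_
    ext v
    simp [hx]
  refine ⟨g', hg.sub (((contDiff_apply ℝ ℝ k).pow 3).smul contDiff_const), ?_, ?_, ?_, ?_⟩
  · intro x
    simp only [g', hodd, Pi.neg_apply]
    rw [Odd.neg_pow (by decide), neg_smul]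
    abel
  · rw [hflat 0 rfl]; exact h0
  · intro x hx
    have h1 := hδS x hx
    have h2 : |x k ^ 3| ≤ |C| := (hC ⟨x, hx, rfl⟩).trans (le_abs_self C)
    have h3 : ‖(x k ^ 3) • y‖ < δ := by
      rw [norm_smul, Real.norm_eq_abs]
      rw [lt_div_iff₀ (by positivity)] at hy
      nlinarith [norm_nonneg y, abs_nonneg (x k ^ 3)]
    calc ‖g' x - f x‖ = ‖(g x - f x) - (x k ^ 3) • y‖ := by congr 1; simp only [g']; abel
      _ ≤ ‖g x - f x‖ + ‖(x k ^ 3) • y‖ := norm_sub_le _ _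
      _ < ‖f x‖ := by linarith
  · intro x hx hex
    by_cases hk : x k = 0
    · rw [hflat x hk]
      refine hreg x (by simpa [g', hk] using hx) ?_
      obtain ⟨i, hi, hxi⟩ := hex
      rcases Finset.mem_insert.1 hi with rfl | hi
      · exact absurd hk hxi
      · exact ⟨i, hi, hxi⟩
    · have h3 : x k ^ 3 ≠ 0 := pow_ne_zero 3 hk
      have hhx : h x = y := by
        have : g x = (x k ^ 3) • y := sub_eq_zero.1 hx
        simp only [h, this, smul_smul, inv_mul_cancel₀ h3, one_smul]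
      have hdet : (fderiv ℝ h x).det ≠ 0 := fun h' => hyC ⟨x, ⟨hk, h'⟩, hhx⟩
      have hev : g' =ᶠ[𝓝 x] fun z => (z k ^ 3) • (h z - y) := by
        have : ∀ᶠ z in 𝓝 x, z k ≠ 0 := (continuous_apply k).continuousAt.eventually_ne hk
        filter_upwards [this] with z hz
        simp only [g', h, smul_sub, smul_smul, mul_inv_cancel₀ (pow_ne_zero 3 hz), one_smul]
      have hd := (hc3 x).smul ((hdh x hk).hasFDerivAt.sub_const y)
      rw [hev.fderiv_eq]
      have e : fderiv ℝ (fun z : ι → ℝ => (z k ^ 3) • (h z - y)) x = (x k ^ 3) • fderiv ℝ h x := by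
        refine (HasFDerivAt.fderiv hd).trans ?_
        ext v
        simp [hhx]
      rw [e]
      have : ((x k ^ 3) • fderiv ℝ h x).det = (x k ^ 3) ^ Fintype.card ι * (fderiv ℝ h x).det := by
        simp [ContinuousLinearMap.det]
      rw [this]
      exact mul_ne_zero (pow_ne_zero _ h3) hdet

theorem borsuk {f : (ι → ℝ) → (ι → ℝ)} (hf : Continuous f) (hodd : ∀ x, f (-x) = -f x) {R : ℝ}
    (hR : 0 < R) (H : ∀ x, ‖x‖ = R → f x ≠ 0) : OddDeg f (Metric.ball 0 R) := by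
  have hfr : ∀ x ∈ frontier (Metric.ball (0 : ι → ℝ) R), ‖x‖ = R := by
    intro x hx
    rwa [frontier_ball _ hR.ne', mem_sphere_zero_iff_norm] at hx
  have hS := isCompact_frontier (Metric.isBounded_ball (x := (0 : ι → ℝ)) (r := R))
  obtain ⟨m, hm, hmS⟩ := hS.exists_forall_le' (f := fun x => ‖f x‖) (a := 0)
    (by fun_prop) fun x hx => norm_pos_iff.2 (H x (hfr x hx))
  obtain ⟨g, hg, hga, -⟩ := hf.exists_contDiff_approx 1
    (ε := fun _ => m) continuous_const fun _ => hm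
  have hg : ContDiff ℝ 1 g := by exact_mod_cast hg
  let g0 : (ι → ℝ) → (ι → ℝ) := fun x => (1 / 2 : ℝ) • (g x - g (-x))
  have hg0 : ContDiff ℝ 1 g0 := (hg.sub (hg.comp contDiff_neg)).const_smul _
  have hg0c : ∀ x, ‖g0 x - f x‖ < m := by
    intro x
    have h1 := hga x
    have h2 := hga (-x)
    rw [dist_eq_norm] at h1 h2
    have : g0 x - f x = (1 / 2 : ℝ) • ((g x - f x) - (g (-x) - f (-x))) := by
      rw [hodd]
      ext i
      simp only [g0, Pi.sub_apply, Pi.smul_apply, smul_eq_mul, Pi.neg_apply]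
      ring
    rw [this, norm_smul]
    have := norm_sub_le (g x - f x) (g (-x) - f (-x))
    norm_num
    linarith
  let θ : ContDiffBump (0 : ι → ℝ) := ⟨R / 2, R, half_pos hR, half_lt_self hR⟩
  let g1 : (ι → ℝ) → (ι → ℝ) := fun x => θ x • x + (1 - θ x) • g0 x
  have hθ : ContDiff ℝ 1 θ := θ.contDiff (n := 1)
  have hg1 : ContDiff ℝ 1 g1 := (hθ.smul contDiff_id).add ((contDiff_const.sub hθ).smul hg0)
  have main : ∀ s : Finset ι, ∃ g' : (ι → ℝ) → (ι → ℝ), ContDiff ℝ 1 g' ∧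
      (∀ x, g' (-x) = -g' x) ∧ (fderiv ℝ g' 0).det ≠ 0 ∧
      (∀ x ∈ frontier (Metric.ball (0 : ι → ℝ) R), ‖g' x - f x‖ < ‖f x‖) ∧
      ∀ x, g' x = 0 → (∃ i ∈ s, x i ≠ 0) → (fderiv ℝ g' x).det ≠ 0 := by
    intro s
    induction s using Finset.induction_on with
    | empty =>
      refine ⟨g1, hg1, ?_, ?_, ?_, by simp⟩
      · intro x
        simp only [g1, θ.neg, g0, neg_neg]
        ext i
        simp only [Pi.add_apply, Pi.smul_apply, Pi.neg_apply, Pi.sub_apply, smul_eq_mul]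
        ring
      · have e : g1 =ᶠ[𝓝 0] id := θ.eventuallyEq_one.mono fun x hx => by
          simp only [Pi.one_apply] at hx
          simp [g1, hx]
        rw [e.fderiv_eq, fderiv_id]
        simp [ContinuousLinearMap.det]
      · intro x hx
        have : θ x = 0 := θ.zero_of_le_dist (by simp [θ, hfr x hx])
        simp only [g1, this, zero_smul, sub_zero, one_smul, zero_add]
        exact (hg0c x).trans_le (hmS x hx)
    | insert k s _ ih =>
      obtain ⟨g', a, b, c, d, e⟩ := ih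
      exact borsuk_step hf hS s k a b c d e
  obtain ⟨g', a, b, c, d, e⟩ := main Finset.univ
  have hne : ∀ x ∈ frontier (Metric.ball (0 : ι → ℝ) R), g' x ≠ 0 := by
    intro x hx h0
    have := d x hx
    rw [h0, zero_sub, norm_neg] at this
    exact lt_irrefl _ this
  obtain ⟨hfin, k, hk, hp⟩ := deg_count a Metric.isOpen_ball Metric.isBounded_ball hne (by
    intro x _ h0
    by_cases hx : x = 0
    · rw [hx]; exact c
    · obtain ⟨i, hi⟩ := Function.ne_iff.1 hx
      exact e x h0 ⟨i, Finset.mem_univ i, hi⟩)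
  refine ⟨k, hp.2 (odd_ncard_of_symm hfin ⟨Metric.mem_ball_self hR, ?_⟩ ?_), ?_⟩
  · have := b 0
    rw [neg_zero] at this
    have h2 : (2 : ℝ) • g' 0 = 0 := by rw [two_smul]; nth_rewrite 1 [this]; simp
    simpa using h2
  · intro x hx
    exact ⟨by simpa using hx.1, by rw [b, hx.2, neg_zero]⟩
  · rw [deg_rouche hf a.continuous Metric.isOpen_ball Metric.isBounded_ball d, hk]

end Vale.Agent.Lib.Degree
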