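import Vale.Agent.Lib.Degree.Basic

/-! Counting formula, sign rule, change of variables modulo two, and the theorem of Borsuk. -/

open MeasureTheory Set Filter Topology

set_option linter.unusedSectionVars false

namespace Vale.Agent.Lib.Degree

variable {ι : Type} [Fintype ι] [DecidableEq ι]

theorem exists_lower_bound {L : (ι → ℝ) →L[ℝ] (ι → ℝ)} (hL : L.det ≠ 0) :
    ∃ c > (0 : ℝ), ∀ w, c * ‖w‖ ≤ ‖L w‖ := by
  let e := L.toContinuousLinearEquivOfDetNeZero hL
  refine ⟨1 / (‖(e.symm : (ι → ℝ) →L[ℝ] (ι → ℝ))‖ + 1), by positivity, fun w => ?_⟩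
  have h1 : w = (e.symm : (ι → ℝ) →L[ℝ] (ι → ℝ)) (L w) := by
    have : L w = e w := rfl
    rw [this]; simp
  have h2 := (e.symm : (ι → ℝ) →L[ℝ] (ι → ℝ)).le_opNorm (L w)
  rw [← h1] at h2
  rw [one_div, inv_mul_le_iff₀ (by positivity)]
  nlinarith [norm_nonneg (L w)]

theorem deg_affine {L : (ι → ℝ) →L[ℝ] (ι → ℝ)} (hL : L.det ≠ 0) (z : ι → ℝ) {r : ℝ} (hr : 0 < r) :
    deg (fun x => L (x - z)) (Metric.ball z r) = if 0 < L.det then 1 else -1 := by
  obtain ⟨c, hc, hcL⟩ := exists_lower_bound hL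
  let n : ℝ := Fintype.card ι
  have hn : 0 ≤ n := by positivity
  let l : ℝ := (n + 2) / (c * r)
  have hl : 0 < l := by positivity
  have hlc : l * (c * r) = n + 2 := by simp only [l]; field_simp
  let M : (ι → ℝ) →L[ℝ] (ι → ℝ) := l • L
  let g : (ι → ℝ) → (ι → ℝ) := fun x => M (x - z)
  have hd : ∀ x, HasFDerivAt g M x := fun x => by
    have := M.hasFDerivAt.comp x ((hasFDerivAt_id x).sub_const z)
    rw [ContinuousLinearMap.comp_id] at this
    exact this
  have hg : ContDiff ℝ 1 g := M.contDiff.comp (contDiff_id.sub contDiff_const)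
  have hfar : ∀ x, x ∉ Metric.ball z r → c * r ≤ ‖L (x - z)‖ := by
    intro x hx
    rw [Metric.mem_ball, dist_eq_norm, not_lt] at hx
    exact (mul_le_mul_of_nonneg_left hx hc.le).trans (hcL _)
  have ha : Adm g (fun x => L (x - z)) (frontier (Metric.ball z r)) := by
    intro x hx
    have hx' : x ∉ Metric.ball z r := fun h => hx.2 (by rwa [Metric.isOpen_ball.interior_eq])
    have h1 := hfar x hx'
    set u := L (x - z) with hu
    have hup : 0 < ‖u‖ := lt_of_lt_of_le (by positivity) h1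
    have h2 : ∑ i, |u i| ≤ n * ‖u‖ := by
      calc ∑ i, |u i| ≤ ∑ _i : ι, ‖u‖ := Finset.sum_le_sum fun i _ => norm_le_pi_norm u i
        _ = n * ‖u‖ := by simp [n]
    have h3 : ‖u‖ * ‖u‖ ≤ ∑ i, u i * u i := by
      have : ‖u‖ ≤ √(∑ i, u i * u i) := by
        refine (pi_norm_le_iff_of_nonneg (Real.sqrt_nonneg _)).2 fun i => ?_
        refine Real.abs_le_sqrt ?_
        rw [sq]
        exact Finset.single_le_sum (f := fun j => u j * u j) (fun j _ => mul_self_nonneg _)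
          (Finset.mem_univ i)
      have h4 := Real.mul_self_sqrt
        (Finset.sum_nonneg (s := Finset.univ) fun j _ => mul_self_nonneg (u j))
      nlinarith [norm_nonneg u]
    have h4 : ∑ i, g x i * u i = l * ∑ i, u i * u i := by
      rw [Finset.mul_sum]
      refine Finset.sum_congr rfl fun i _ => ?_
      simp only [g, M, smul_apply, Pi.smul_apply, smul_eq_mul, ← hu]
      ring
    simp only [← hu]
    rw [h4]
    have h5 : (n + 2) * ‖u‖ ≤ l * (‖u‖ * ‖u‖) := by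
      rw [← hlc]
      nlinarith [mul_le_mul_of_nonneg_left h1 hl.le]
    nlinarith [mul_le_mul_of_nonneg_left h3 hl.le]
  rw [deg_eq hg Metric.isOpen_ball Metric.isBounded_ball ha]
  have hdet : M.det = l ^ Fintype.card ι * L.det := by
    simp [M, ContinuousLinearMap.det]
  have hM : M.det ≠ 0 := by rw [hdet]; positivity
  have hbij : Function.Bijective g := by
    let e := M.toContinuousLinearEquivOfDetNeZero hM
    exact e.bijective.comp (Equiv.subRight z).bijective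
  have hcv := integral_image_eq_integral_abs_det_fderiv_smul (volume : Measure (ι → ℝ))
    (s := univ) MeasurableSet.univ (fun x _ => (hd x).hasFDerivWithinAt)
    hbij.injective.injOn phi
  rw [image_univ, hbij.surjective.range_eq] at hcv
  simp only [Measure.restrict_univ, smul_eq_mul] at hcv
  rw [setIntegral_eq_integral_of_forall_compl_eq_zero]
  · simp only [jac, (hd _).fderiv]
    have hc0 : c0 ι = |M.det| * ∫ x, phi (g x) := by rw [c0, hcv, integral_const_mul]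
    rw [integral_mul_const, div_eq_iff c0_pos.ne', hc0]
    split_ifs with h
    · have : 0 < M.det := by rw [hdet]; positivity
      rw [abs_of_pos this]; ring
    · have h' : L.det < 0 := lt_of_le_of_ne (not_lt.1 h) hL
      have : M.det < 0 := by rw [hdet]; exact mul_neg_of_pos_of_neg (by positivity) h'
      rw [abs_of_neg this]; ring
  · intro x hx
    have h1 := hfar x hx
    have : 1 < ‖g x‖ := by
      simp only [g, M, smul_apply, norm_smul, Real.norm_eq_abs, abs_of_pos hl]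
      nlinarith [mul_le_mul_of_nonneg_left h1 hl.le]
    rw [jac, phi_eq_zero this, zero_mul]

theorem local_linear {g : (ι → ℝ) → (ι → ℝ)} {z : ι → ℝ} {L : (ι → ℝ) →L[ℝ] (ι → ℝ)}
    (hd : HasFDerivAt g L z) (hL : L.det ≠ 0) (h0 : g z = 0) :
    ∀ᶠ x in 𝓝 z, x ≠ z → ‖g x - L (x - z)‖ < ‖L (x - z)‖ := by
  obtain ⟨c, hc, hcL⟩ := exists_lower_bound hL
  have := hd.isLittleO.bound (half_pos hc)
  filter_upwards [this] with x hx hne
  rw [h0, sub_zero] at hx
  have : 0 < ‖x - z‖ := norm_pos_iff.2 (sub_ne_zero.2 hne)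
  nlinarith [hcL (x - z)]

theorem deg_count {g : (ι → ℝ) → (ι → ℝ)} (hg : ContDiff ℝ 1 g) {Ω : Set (ι → ℝ)}
    (ho : IsOpen Ω) (hb : Bornology.IsBounded Ω) (H : ∀ x ∈ frontier Ω, g x ≠ 0)
    (hreg : ∀ x ∈ Ω, g x = 0 → (fderiv ℝ g x).det ≠ 0) :
    {x | x ∈ Ω ∧ g x = 0}.Finite ∧ ∃ k : ℤ, deg g Ω = k ∧
      (Odd k ↔ Odd {x | x ∈ Ω ∧ g x = 0}.ncard) := by
  set Z := {x | x ∈ Ω ∧ g x = 0} with hZ
  have hcl : ∀ x ∈ closure Ω, g x = 0 → x ∈ Ω := by
    intro x hx h0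
    by_contra hn
    exact H x ⟨hx, by rwa [ho.interior_eq]⟩ h0
  have hZc : IsCompact Z := by
    have : Z = closure Ω ∩ g ⁻¹' {0} := by
      ext x
      exact ⟨fun h => ⟨subset_closure h.1, h.2⟩, fun h => ⟨hcl x h.1 h.2, h.2⟩⟩
    rw [this]
    exact hb.isCompact_closure.inter_right (isClosed_singleton.preimage hg.continuous)
  have hloc : ∀ z ∈ Z, ∀ᶠ x in 𝓝 z, x ≠ z →
      ‖g x - fderiv ℝ g z (x - z)‖ < ‖fderiv ℝ g z (x - z)‖ := fun z hz =>
    local_linear ((hg.differentiable (by norm_num)) z).hasFDerivAt (hreg z hz.1 hz.2) hz.2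
  have hiso : ∀ z ∈ Z, ∀ᶠ x in 𝓝 z, x ∈ Z → x = z := by
    intro z hz
    filter_upwards [hloc z hz] with x hx hxZ
    by_contra hne
    have := hx hne
    rw [hxZ.2, zero_sub, norm_neg] at this
    exact lt_irrefl _ this
  have hfin : Z.Finite := by
    obtain ⟨t, htZ, ht⟩ := hZc.elim_nhds_subcover (fun z => {x | z ∈ Z → x ∈ Z → x = z})
      (fun z hz => (hiso z hz).mono fun x hx _ => hx)
    refine t.finite_toSet.subset fun x hx => ?_
    obtain ⟨z, hz, hxz⟩ := mem_iUnion₂.1 (ht hx)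
    rw [hxz (htZ z hz) hx]
    exact hz
  refine ⟨hfin, ?_⟩
  have hP : ∀ z ∈ Z, ∀ᶠ r in 𝓝[>] (0 : ℝ), ∀ x, dist x z ≤ 2 * r → (x ∈ Ω ∧ (x ∈ Z → x = z) ∧
      (x ≠ z → ‖g x - fderiv ℝ g z (x - z)‖ < ‖fderiv ℝ g z (x - z)‖)) := by
    intro z hz
    have := ((ho.eventually_mem hz.1).and ((hiso z hz).and (hloc z hz)))
    obtain ⟨ε, hε, h⟩ := Metric.eventually_nhds_iff.1 this
    have h2 : ∀ᶠ r in 𝓝[>] (0 : ℝ), r < ε / 2 :=
      mem_nhdsWithin_of_mem_nhds (gt_mem_nhds (half_pos hε))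
    filter_upwards [h2] with r hr x hx
    exact h (by linarith)
  obtain ⟨r, hr, hr0⟩ := (((eventually_all_finite hfin).2 hP).and self_mem_nhdsWithin).exists
  have hr0 : 0 < r := hr0
  have hsum := deg_sum hg.continuous ho hb hfin.toFinset (fun z => Metric.ball z r)
    (fun _ _ => Metric.isOpen_ball)
    (fun z hz x hx => (hr z (hfin.mem_toFinset.1 hz) x
      (by rw [Metric.mem_ball] at hx; linarith)).1)
    (by
      intro z hz z' hz' hne
      have hz := hfin.mem_toFinset.1 hz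
      have hz' := hfin.mem_toFinset.1 hz'
      refine disjoint_left.2 fun x hx hx' => hne ?_
      rw [Metric.mem_ball] at hx hx'
      refine (hr z' hz' z ?_).2.1 hz
      have := dist_triangle_left z z' x
      linarith)
    (fun x hx h0 => ⟨x, hfin.mem_toFinset.2 ⟨hcl x hx h0, h0⟩, Metric.mem_ball_self hr0⟩)
  have hone : ∀ z ∈ hfin.toFinset, deg g (Metric.ball z r) =
      ((if 0 < (fderiv ℝ g z).det then 1 else -1 : ℤ) : ℝ) := by
    intro z hz
    have hz := hfin.mem_toFinset.1 hz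
    rw [← deg_rouche (f := fun x => fderiv ℝ g z (x - z)) (by fun_prop) hg.continuous
      Metric.isOpen_ball Metric.isBounded_ball, deg_affine (hreg z hz.1 hz.2) z hr0]
    · split_ifs <;> simp
    · intro x hx
      rw [frontier_ball z hr0.ne', mem_sphere_iff_norm, ← dist_eq_norm] at hx
      refine (hr z hz x (by linarith)).2.2 ?_
      rintro rfl
      simp at hx
      linarith
  refine ⟨∑ z ∈ hfin.toFinset, (if 0 < (fderiv ℝ g z).det then 1 else -1 : ℤ), ?_, ?_⟩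
  · rw [hsum, Finset.sum_congr rfl hone]
    push_cast
    rfl
  · rw [Set.ncard_eq_toFinset_card Z hfin, ← Int.odd_coe_nat]
    have : Even ((hfin.toFinset.card : ℤ) -
        ∑ z ∈ hfin.toFinset, (if 0 < (fderiv ℝ g z).det then 1 else -1 : ℤ)) := by
      rw [Finset.card_eq_sum_ones]
      push_cast
      rw [← Finset.sum_sub_distrib]
      refine Finset.even_sum _ fun z _ => ?_
      split_ifs
      · simp
      · norm_num
    rw [Int.even_sub'] at this
    exact this.symm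

theorem exists_not_mem_of_null {C : Set (ι → ℝ)} (hC : volume C = 0) {η : ℝ} (hη : 0 < η) :
    ∃ y : ι → ℝ, ‖y‖ < η ∧ y ∉ C := by
  by_contra h
  push Not at h
  have : volume (Metric.ball (0 : ι → ℝ) η) = 0 :=
    measure_mono_null (fun y hy => h y (by simpa using hy)) hC
  exact (Metric.measure_ball_pos volume _ hη).ne' this

theorem sard {h : (ι → ℝ) → (ι → ℝ)} {U : Set (ι → ℝ)}
    (hd : ∀ x ∈ U, DifferentiableAt ℝ h x) :
    volume (h '' {x | x ∈ U ∧ (fderiv ℝ h x).det = 0}) = 0 :=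
  addHaar_image_eq_zero_of_det_fderivWithin_eq_zero volume
    (fun x hx => (hd x hx.1).hasFDerivAt.hasFDerivWithinAt) fun _ hx => hx.2

/-- The degree is an odd integer. -/
def OddDeg (f : (ι → ℝ) → (ι → ℝ)) (Ω : Set (ι → ℝ)) : Prop := ∃ k : ℤ, Odd k ∧ deg f Ω = k

theorem OddDeg.ne_zero {f : (ι → ℝ) → (ι → ℝ)} {Ω : Set (ι → ℝ)} (h : OddDeg f Ω) :
    deg f Ω ≠ 0 := by
  obtain ⟨k, hk, e⟩ := h
  rw [e]
  rintro h0
  have : k = 0 := by exact_mod_cast h0
  subst this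
  simp at hk

theorem oddDeg_comp {f Ψ : (ι → ℝ) → (ι → ℝ)} (hf : Continuous f) (hΨ : ContDiff ℝ 1 Ψ)
    {Ω₁ Ω₂ : Set (ι → ℝ)} (ho₁ : IsOpen Ω₁) (hb₁ : Bornology.IsBounded Ω₁)
    (ho₂ : IsOpen Ω₂) (hb₂ : Bornology.IsBounded Ω₂) (hinj : InjOn Ψ Ω₂) {ε : ℝ} (hε : 0 < ε)
    (h1 : ∀ a ∈ closure Ω₁, ‖f a‖ ≤ ε → a ∈ Ω₁ ∧ a ∈ Ψ '' Ω₂)
    (h2 : ∀ b ∈ closure Ω₂, ‖f (Ψ b)‖ ≤ ε → b ∈ Ω₂ ∧ Ψ b ∈ Ω₁)
    (hodd : OddDeg f Ω₁) : OddDeg (f ∘ Ψ) Ω₂ := by
  obtain ⟨g, hg, hga, -⟩ := hf.exists_contDiff_approx 1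
    (ε := fun _ => ε / 3) continuous_const fun _ => by positivity
  have hg : ContDiff ℝ 1 g := by exact_mod_cast hg
  have hgΨ : ContDiff ℝ 1 (g ∘ Ψ) := hg.comp hΨ
  obtain ⟨y, hy, hyC⟩ := exists_not_mem_of_null (η := ε / 3) (measure_union_null
    (sard (h := g) (U := univ) fun x _ => (hg.differentiable (by norm_num)) x)
    (sard (h := g ∘ Ψ) (U := univ) fun x _ => (hgΨ.differentiable (by norm_num)) x))
    (by positivity)
  have hclose : ∀ a, ‖(g a - y) - f a‖ < ε := by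
    intro a
    have := hga a
    rw [dist_eq_norm] at this
    calc ‖(g a - y) - f a‖ = ‖(g a - f a) - y‖ := by congr 1; abel
      _ ≤ ‖g a - f a‖ + ‖y‖ := norm_sub_le _ _
      _ < ε := by linarith
  have hz : ∀ a, g a - y = 0 → ‖f a‖ ≤ ε := by
    intro a ha
    have := hclose a
    rw [ha, zero_sub, norm_neg] at this
    exact this.le
  have f1 : ∀ a ∈ frontier Ω₁, ε < ‖f a‖ := by
    intro a ha
    by_contra hc
    exact ha.2 (by rw [ho₁.interior_eq]; exact (h1 a ha.1 (not_lt.1 hc)).1)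
  have f2 : ∀ b ∈ frontier Ω₂, ε < ‖f (Ψ b)‖ := by
    intro a ha
    by_contra hc
    exact ha.2 (by rw [ho₂.interior_eq]; exact (h2 a ha.1 (not_lt.1 hc)).1)
  have d1 : deg f Ω₁ = deg (fun a => g a - y) Ω₁ :=
    deg_rouche hf (hg.continuous.sub continuous_const) ho₁ hb₁
      fun a ha => (hclose a).trans (f1 a ha)
  have d2 : deg (f ∘ Ψ) Ω₂ = deg (fun b => (g ∘ Ψ) b - y) Ω₂ :=
    deg_rouche (hf.comp hΨ.continuous) (hgΨ.continuous.sub continuous_const) ho₂ hb₂
      fun a ha => (hclose (Ψ a)).trans (f2 a ha)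
  obtain ⟨-, k1, e1, p1⟩ := deg_count (g := fun a => g a - y) (hg.sub contDiff_const) ho₁ hb₁
    (fun a ha h0 => absurd (hz a h0) (not_le.2 (f1 a ha)))
    (fun x _ h0 hdet => hyC (Or.inl ⟨x, ⟨mem_univ _, by rwa [fderiv_sub_const] at hdet⟩,
      sub_eq_zero.1 h0⟩))
  obtain ⟨-, k2, e2, p2⟩ := deg_count (g := fun b => (g ∘ Ψ) b - y) (hgΨ.sub contDiff_const)
    ho₂ hb₂ (fun a ha h0 => absurd (hz _ h0) (not_le.2 (f2 a ha)))
    (fun x _ h0 hdet => hyC (Or.inr ⟨x, ⟨mem_univ _, by rwa [fderiv_sub_const] at hdet⟩,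
      sub_eq_zero.1 h0⟩))
  have himg : Ψ '' {b | b ∈ Ω₂ ∧ (g ∘ Ψ) b - y = 0} = {a | a ∈ Ω₁ ∧ g a - y = 0} := by
    ext a
    constructor
    · rintro ⟨b, ⟨hb, h0⟩, rfl⟩
      exact ⟨(h2 b (subset_closure hb) (hz _ h0)).2, h0⟩
    · rintro ⟨ha, h0⟩
      obtain ⟨b, hb, rfl⟩ := (h1 a (subset_closure ha) (hz _ h0)).2
      exact ⟨b, ⟨hb, h0⟩, rfl⟩
  have hcard := Set.InjOn.ncard_image
    (s := {b | b ∈ Ω₂ ∧ (g ∘ Ψ) b - y = 0}) (hinj.mono fun b hb => hb.1)
  rw [himg] at hcard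
  obtain ⟨k, hk, ek⟩ := hodd
  have : k = k1 := by
    rw [d1, e1] at ek
    exact_mod_cast ek.symm
  subst this
  exact ⟨k2, p2.2 (hcard ▸ p1.1 hk), d2.trans e2⟩

/-- Coordinatewise sign change. -/
noncomputable def sgn (e : ι → ℝ) : (ι → ℝ) →L[ℝ] (ι → ℝ) :=
  ContinuousLinearMap.pi fun i =>
    (e i • ContinuousLinearMap.id ℝ ℝ).comp (ContinuousLinearMap.proj i)

theorem sgn_apply (e x : ι → ℝ) (i : ι) : sgn e x i = e i * x i := by simp [sgn]

theorem det_sgn (e : ι → ℝ) : (sgn e).det = ∏ i, e i := by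
  rw [sgn, ContinuousLinearMap.det_pi]
  refine Finset.prod_congr rfl fun i _ => ?_
  simp [ContinuousLinearMap.det]

theorem sgn_sgn {e : ι → ℝ} (he : ∀ i, e i * e i = 1) (x : ι → ℝ) : sgn e (sgn e x) = x := by
  ext i
  rw [sgn_apply, sgn_apply, ← mul_assoc, he, one_mul]

theorem deg_sign {f : (ι → ℝ) → (ι → ℝ)} (hf : Continuous f) {Ω : Set (ι → ℝ)}
    (ho : IsOpen Ω) (hb : Bornology.IsBounded Ω) (H : ∀ x ∈ frontier Ω, f x ≠ 0)
    {e e' : ι → ℝ} (he : ∀ i, e i * e i = 1) (he' : ∀ i, e' i * e' i = 1)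
    (hΩ : ∀ x ∈ Ω, sgn e x ∈ Ω) (hcomm : ∀ x ∈ frontier Ω, f (sgn e x) = sgn e' (f x)) :
    deg f Ω = (∏ i, e i) * (∏ i, e' i) * deg f Ω := by
  obtain ⟨g, hg, ag⟩ := exists_adm_self hf (isCompact_frontier hb) H
  have hg' : ContDiff ℝ 1 fun x => sgn e' (g (sgn e x)) :=
    (sgn e').contDiff.comp (hg.comp (sgn e).contDiff)
  have hfr : ∀ x ∈ frontier Ω, sgn e x ∈ frontier Ω := by
    intro x hx
    refine ⟨map_mem_closure (sgn e).continuous hx.1 hΩ, fun h => hx.2 ?_⟩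
    rw [ho.interior_eq] at h ⊢
    simpa [sgn_sgn he] using hΩ _ h
  have habs : ∀ i, |e' i| = 1 := fun i => by
    have := he' i
    have h2 : |e' i| * |e' i| = 1 := by rw [← abs_mul, this, abs_one]
    nlinarith [abs_nonneg (e' i)]
  have ag' : Adm (fun x => sgn e' (g (sgn e x))) f (frontier Ω) := by
    intro x hx
    have := ag _ (hfr x hx)
    rw [hcomm x hx] at this
    simp only [sgn_apply, abs_mul, habs, one_mul] at this ⊢
    convert this using 2
    ring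
  conv_lhs => rw [deg_eq hg' ho hb ag']
  rw [deg_eq hg ho hb ag, ← mul_div_assoc]
  congr 1
  have hjac : ∀ x, jac (fun x => sgn e' (g (sgn e x))) x =
      (∏ i, e i) * (∏ i, e' i) * jac g (sgn e x) := by
    intro x
    have hd : HasFDerivAt (fun x => sgn e' (g (sgn e x)))
        ((sgn e').comp ((fderiv ℝ g (sgn e x)).comp (sgn e))) x :=
      (sgn e').hasFDerivAt.comp x
        (((hg.differentiable (by norm_num)) _).hasFDerivAt.comp x (sgn e).hasFDerivAt)
    have hphi : phi (sgn e' (g (sgn e x))) = phi (g (sgn e x)) := by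
      refine Finset.prod_congr rfl fun i _ => ?_
      rw [sgn_apply, bb, bb, mul_pow, sq (e' i), he', one_mul]
    rw [jac, jac, hd.fderiv, hphi, ← det_sgn, ← det_sgn]
    simp only [ContinuousLinearMap.det, ContinuousLinearMap.toLinearMap_comp, LinearMap.det_comp]
    ring
  simp_rw [hjac]
  rw [integral_const_mul]
  congr 1
  have himg : sgn e '' Ω = Ω := by
    apply Subset.antisymm
    · rintro _ ⟨x, hx, rfl⟩
      exact hΩ x hx
    · intro x hx
      exact ⟨sgn e x, hΩ x hx, sgn_sgn he x⟩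
  have hcv := integral_image_eq_integral_abs_det_fderiv_smul (volume : Measure (ι → ℝ))
    (s := Ω) ho.measurableSet (fun x _ => (sgn e).hasFDerivAt.hasFDerivWithinAt)
    (fun x _ y _ hxy => by rw [← sgn_sgn he x, ← sgn_sgn he y]; exact congrArg _ hxy) (jac g)
  have habs' : |(sgn e).det| = 1 := by
    rw [det_sgn, Finset.abs_prod]
    refine Finset.prod_eq_one fun i _ => ?_
    have h2 : |e i| * |e i| = 1 := by rw [← abs_mul, he, abs_one]
    nlinarith [abs_nonneg (e i)]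
  rw [himg, habs'] at hcv
  simpa using hcv.symm

end Vale.Agent.Lib.Degree
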