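import Mathlib.MeasureTheory.Function.Jacobian
import Mathlib.LinearAlgebra.Lagrange
import Mathlib.Geometry.Manifold.PartitionOfUnity
import Mathlib.Analysis.Calculus.ContDiff.RCLike
import Mathlib.MeasureTheory.Measure.Lebesgue.EqHaar
import Mathlib.Topology.MetricSpace.Contracting

/-! The Jacobian determinant is a null Lagrangian (Milnor and Rogers polynomial trick). -/

open MeasureTheory Set Filter Topology
open scoped NNReal

set_option linter.unusedSectionVars false

namespace Vale.Agent.Lib.Degree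

variable {ι : Type} [Fintype ι] [DecidableEq ι]

theorem continuous_det_fderiv {g : (ι → ℝ) → (ι → ℝ)} (hg : ContDiff ℝ 1 g) :
    Continuous fun x => (fderiv ℝ g x).det :=
  ContinuousLinearMap.continuous_det.comp (hg.continuous_fderiv (by norm_num))

/-- The determinant of `1 + t M` is a polynomial in `t` of degree at most the dimension. -/
theorem exists_poly_det (M : (ι → ℝ) →L[ℝ] (ι → ℝ)) :
    ∃ p : Polynomial ℝ, p.natDegree ≤ Fintype.card ι ∧
      ∀ t : ℝ, (ContinuousLinearMap.id ℝ (ι → ℝ) + t • M).det = p.eval t := by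
  let A : Matrix ι ι ℝ := LinearMap.toMatrix' (M : (ι → ℝ) →ₗ[ℝ] (ι → ℝ))
  let B : Matrix ι ι (Polynomial ℝ) :=
    Matrix.of fun i j => Polynomial.C ((1 : Matrix ι ι ℝ) i j) + Polynomial.C (A i j) * Polynomial.X
  refine ⟨B.det, ?_, ?_⟩
  · rw [Matrix.det_apply]
    refine Polynomial.natDegree_sum_le_of_forall_le _ _ ?_
    intro σ _
    refine (Polynomial.natDegree_smul_le _ _).trans ?_
    refine (Polynomial.natDegree_prod_le _ _).trans ?_
    calc ∑ i, (B (σ i) i).natDegree ≤ ∑ _i : ι, 1 := by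
          refine Finset.sum_le_sum fun i _ => ?_
          simp only [B, Matrix.of_apply]
          refine (Polynomial.natDegree_add_le _ _).trans (max_le (by simp) ?_)
          exact (Polynomial.natDegree_C_mul_le _ _).trans (by simp)
      _ = Fintype.card ι := by simp
  · intro t
    have h1 : (ContinuousLinearMap.id ℝ (ι → ℝ) + t • M).det = (1 + t • A).det := by
      rw [ContinuousLinearMap.det, ← LinearMap.det_toMatrix']
      congr 1
      simp [A]
    rw [h1, ← Polynomial.coe_evalRingHom, RingHom.map_det]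
    congr 1
    ext i j
    simp only [B, RingHom.mapMatrix_apply, Matrix.map_apply, Matrix.of_apply, Matrix.add_apply,
      Matrix.smul_apply, smul_eq_mul, Polynomial.coe_evalRingHom, Polynomial.eval_add,
      Polynomial.eval_mul, Polynomial.eval_C, Polynomial.eval_X]
    ring

theorem small_step {v : (ι → ℝ) → (ι → ℝ)} (hv : ContDiff ℝ 1 v) (hc : HasCompactSupport v) :
    ∃ η > (0 : ℝ), ∀ t, |t| < η →
      ∫ x, ((ContinuousLinearMap.id ℝ (ι → ℝ) + t • fderiv ℝ v x).det - 1) = 0 := by
  obtain ⟨L, hL⟩ := hv.lipschitzWith_of_hasCompactSupport hc (by norm_num)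
  have hdet : ∃ δ > (0 : ℝ), ∀ N : (ι → ℝ) →L[ℝ] (ι → ℝ), ‖N‖ < δ →
      0 < (ContinuousLinearMap.id ℝ (ι → ℝ) + N).det := by
    have hcont : Continuous fun N : (ι → ℝ) →L[ℝ] (ι → ℝ) =>
        (ContinuousLinearMap.id ℝ (ι → ℝ) + N).det :=
      ContinuousLinearMap.continuous_det.comp (by fun_prop)
    have h0 : ∀ᶠ N in 𝓝 (0 : (ι → ℝ) →L[ℝ] (ι → ℝ)),
        0 < (ContinuousLinearMap.id ℝ (ι → ℝ) + N).det := by
      apply hcont.continuousAt.eventually (lt_mem_nhds _)
      simp [ContinuousLinearMap.det]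
    obtain ⟨δ, hδ, h⟩ := Metric.eventually_nhds_iff.1 h0
    exact ⟨δ, hδ, fun N hN => h (by simpa using hN)⟩
  obtain ⟨δ, hδ, hpos⟩ := hdet
  obtain ⟨R, hR⟩ := hc.isCompact.isBounded.subset_ball (0 : ι → ℝ)
  have hL1 : (0 : ℝ) < L + 1 := by positivity
  refine ⟨min δ 1 / (L + 1), by positivity, fun t ht => ?_⟩
  have htL : |t| * L < min δ 1 := by
    rw [lt_div_iff₀ hL1] at ht
    nlinarith [abs_nonneg t]
  have htL1 : |t| * L < 1 := htL.trans_le (min_le_right _ _)
  have htLδ : |t| * L < δ := htL.trans_le (min_le_left _ _)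
  let h : (ι → ℝ) → (ι → ℝ) := fun x => x + t • v x
  have hd : ∀ x, HasFDerivAt h (ContinuousLinearMap.id ℝ (ι → ℝ) + t • fderiv ℝ v x) x :=
    fun x => (hasFDerivAt_id x).add
      (((hv.differentiable (by norm_num)) x).hasFDerivAt.const_smul t)
  have hinj : Function.Injective h := by
    intro x y hxy
    have h1 : x - y = t • (v y - v x) := by
      have : x + t • v x = y + t • v y := hxy
      rw [smul_sub]
      linear_combination (exp := 1) this
    have h2 : ‖x - y‖ ≤ |t| * (L * ‖x - y‖) := by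
      calc ‖x - y‖ = |t| * ‖v y - v x‖ := by rw [h1, norm_smul, Real.norm_eq_abs]
        _ ≤ |t| * (L * ‖x - y‖) := by
          refine mul_le_mul_of_nonneg_left ?_ (abs_nonneg t)
          rw [norm_sub_rev]
          exact hL.norm_sub_le x y
    have h3 : ‖x - y‖ = 0 := by nlinarith [norm_nonneg (x - y)]
    exact sub_eq_zero.1 (norm_eq_zero.1 h3)
  have hsurj : Function.Surjective h := by
    intro y
    let K : ℝ≥0 := ⟨|t| * L, by positivity⟩
    have hK : ContractingWith K fun x => y - t • v x := by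
      refine ⟨by exact_mod_cast htL1, LipschitzWith.of_dist_le_mul fun a b => ?_⟩
      rw [dist_eq_norm, dist_eq_norm]
      have : y - t • v a - (y - t • v b) = t • (v b - v a) := by rw [smul_sub]; abel
      rw [this, norm_smul, Real.norm_eq_abs, norm_sub_rev]
      change _ ≤ |t| * L * ‖a - b‖
      rw [mul_assoc]
      exact mul_le_mul_of_nonneg_left (hL.norm_sub_le a b) (abs_nonneg t)
    have := hK.fixedPoint_isFixedPt
    refine ⟨hK.fixedPoint _, ?_⟩
    change _ + t • v _ = y
    have h2 : y - t • v (hK.fixedPoint _) = hK.fixedPoint _ := this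
    rw [← h2]
    simp only [h2]
    conv_lhs => rw [← h2]
    simp only [h2]
    exact (eq_sub_iff_add_eq.1 h2.symm)
  have hfix : ∀ x, x ∉ Metric.ball (0 : ι → ℝ) R → h x = x := by
    intro x hx
    have : v x = 0 := image_eq_zero_of_notMem_tsupport fun h' => hx (hR h')
    simp [h, this]
  have himg : h '' Metric.ball 0 R = Metric.ball 0 R := by
    apply Subset.antisymm
    · rintro _ ⟨x, hx, rfl⟩
      by_contra hn
      have := hinj (hfix _ hn)
      exact hn (this.symm ▸ hx)
    · intro y hy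
      obtain ⟨x, rfl⟩ := hsurj y
      refine ⟨x, ?_, rfl⟩
      by_contra hn
      exact hn (hfix x hn ▸ hy)
  have hposd : ∀ x, 0 < (ContinuousLinearMap.id ℝ (ι → ℝ) + t • fderiv ℝ v x).det := by
    intro x
    apply hpos
    rw [norm_smul, Real.norm_eq_abs]
    exact (mul_le_mul_of_nonneg_left (norm_fderiv_le_of_lipschitz ℝ hL) (abs_nonneg t)).trans_lt htLδ
  have hcv := integral_image_eq_integral_abs_det_fderiv_smul (volume : Measure (ι → ℝ))
    (s := Metric.ball 0 R) measurableSet_ball (fun x _ => (hd x).hasFDerivWithinAt)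
    hinj.injOn (fun _ => (1 : ℝ))
  rw [himg] at hcv
  simp only [smul_eq_mul, mul_one] at hcv
  have hcont : Continuous fun x => (ContinuousLinearMap.id ℝ (ι → ℝ) + t • fderiv ℝ v x).det :=
    ContinuousLinearMap.continuous_det.comp
      (continuous_const.add ((hv.continuous_fderiv (by norm_num)).const_smul t))
  have hint : IntegrableOn
      (fun x => (ContinuousLinearMap.id ℝ (ι → ℝ) + t • fderiv ℝ v x).det)
      (Metric.ball (0 : ι → ℝ) R) :=
    (hcont.continuousOn.integrableOn_compact (isCompact_closedBall 0 R)).mono_set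
      Metric.ball_subset_closedBall
  have hint1 : IntegrableOn (fun _ : ι → ℝ => (1 : ℝ)) (Metric.ball (0 : ι → ℝ) R) :=
    (continuous_const.continuousOn.integrableOn_compact (isCompact_closedBall 0 R)).mono_set
      Metric.ball_subset_closedBall
  rw [← setIntegral_eq_integral_of_forall_compl_eq_zero (s := Metric.ball (0 : ι → ℝ) R),
    integral_sub hint hint1, hcv]
  · simp only [abs_of_pos (hposd _), sub_self]
  · intro x hx
    have : fderiv ℝ v x = 0 :=
      image_eq_zero_of_notMem_tsupport fun h' => hx (hR (tsupport_fderiv_subset ℝ h'))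
    simp [this, ContinuousLinearMap.det]

theorem milnor {v : (ι → ℝ) → (ι → ℝ)} (hv : ContDiff ℝ 1 v) (hc : HasCompactSupport v) :
    ∫ x, ((ContinuousLinearMap.id ℝ (ι → ℝ) + fderiv ℝ v x).det - 1) = 0 := by
  obtain ⟨η, hη, h⟩ := small_step hv hc
  let n := Fintype.card ι
  let node : ℕ → ℝ := fun j => η * j / (n + 1)
  let s := Finset.range (n + 1)
  have hn1 : (0 : ℝ) < n + 1 := by positivity
  have hnode : InjOn node s := by
    intro a _ b _ hab
    simp only [node] at hab
    field_simp at hab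
    exact_mod_cast hab
  have hsmall : ∀ j ∈ s, |node j| < η := by
    intro j hj
    have hj' : (j : ℝ) < n + 1 := by exact_mod_cast Finset.mem_range.1 hj
    have : 0 ≤ node j := by simp only [node]; positivity
    rw [abs_of_nonneg this]
    simp only [node]
    rw [div_lt_iff₀ hn1]
    nlinarith
  let w : ℕ → ℝ := fun j => (Lagrange.basis s node j).eval 1
  have hw : ∑ j ∈ s, w j = 1 := by
    simp only [w]
    rw [← Polynomial.eval_finsetSum, Lagrange.sum_basis hnode ⟨0, by simp [s]⟩]
    simp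
  have key : ∀ x, (ContinuousLinearMap.id ℝ (ι → ℝ) + fderiv ℝ v x).det - 1 =
      ∑ j ∈ s, w j * ((ContinuousLinearMap.id ℝ (ι → ℝ) + node j • fderiv ℝ v x).det - 1) := by
    intro x
    obtain ⟨p, hp, hpe⟩ := exists_poly_det (fderiv ℝ v x)
    have hdeg : p.degree < s.card := by
      simp only [s, Finset.card_range]
      exact (Polynomial.degree_le_natDegree).trans_lt (by exact_mod_cast Nat.lt_succ_of_le hp)
    have hI := Lagrange.eq_interpolate hnode hdeg
    have h1 := hpe 1
    rw [one_smul] at h1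
    simp only [mul_sub, Finset.sum_sub_distrib, mul_one, hw, hpe, h1]
    congr 1
    conv_lhs => rw [hI]
    simp [Lagrange.interpolate_apply, Polynomial.eval_finsetSum, w, mul_comm]
  simp_rw [key]
  rw [integral_finsetSum]
  · refine Finset.sum_eq_zero fun j hj => ?_
    rw [integral_const_mul, h _ (hsmall j hj), mul_zero]
  · intro j _
    apply Integrable.const_mul
    apply Continuous.integrable_of_hasCompactSupport
    · exact (ContinuousLinearMap.continuous_det.comp
        (continuous_const.add ((hv.continuous_fderiv (by norm_num)).const_smul (node j)))).sub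
        continuous_const
    · refine HasCompactSupport.intro hc.isCompact fun x hx => ?_
      have : fderiv ℝ v x = 0 :=
        image_eq_zero_of_notMem_tsupport fun h' => hx (tsupport_fderiv_subset ℝ h')
      simp [this, ContinuousLinearMap.det]

theorem exists_cutoff {s t : Set (ι → ℝ)} (hs : IsClosed s) (ht : IsClosed t) (hd : Disjoint s t) :
    ∃ f : (ι → ℝ) → ℝ, ContDiff ℝ 1 f ∧ (∀ᶠ x in 𝓝ˢ s, f x = 0) ∧ (∀ᶠ x in 𝓝ˢ t, f x = 1) ∧
      ∀ x, f x ∈ Icc (0 : ℝ) 1 := by
  obtain ⟨f, h0, h1, h2⟩ := exists_contMDiffMap_zero_one_nhds_of_isClosed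
    (modelWithCornersSelf ℝ (ι → ℝ)) (n := 1) hs ht hd
  exact ⟨f, f.contMDiff.contDiff, h0, h1, h2⟩

/-- Null Lagrangian property of the Jacobian determinant. -/
theorem nullLag {g h : (ι → ℝ) → (ι → ℝ)} (hg : ContDiff ℝ 1 g) (hh : ContDiff ℝ 1 h)
    (hc : HasCompactSupport (fun x => g x - h x)) :
    ∫ x, ((fderiv ℝ g x).det - (fderiv ℝ h x).det) = 0 := by
  obtain ⟨R, hR⟩ := hc.isCompact.isBounded.subset_ball (0 : ι → ℝ)
  obtain ⟨χ, hχ, h0, h1, -⟩ := exists_cutoff (s := (Metric.ball (0 : ι → ℝ) R)ᶜ)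
    (t := tsupport fun x => g x - h x) Metric.isOpen_ball.isClosed_compl (isClosed_tsupport _)
    (disjoint_left.2 fun x hx hx' => hx (hR hx'))
  let v1 : (ι → ℝ) → (ι → ℝ) := fun x => χ x • (h x - x)
  let v2 : (ι → ℝ) → (ι → ℝ) := fun x => v1 x + (g x - h x)
  have hv1 : ContDiff ℝ 1 v1 := hχ.smul (hh.sub contDiff_id)
  have hv2 : ContDiff ℝ 1 v2 := hv1.add (hg.sub hh)
  have hc1 : HasCompactSupport v1 := by
    refine HasCompactSupport.intro (isCompact_closedBall 0 R) fun x hx => ?_
    have : χ x = 0 := h0.self_of_nhdsSet x fun h' => hx (Metric.ball_subset_closedBall h')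
    simp [v1, this]
  have hc2 : HasCompactSupport v2 := hc1.add hc
  have m1 := milnor hv1 hc1
  have m2 := milnor hv2 hc2
  have integ : ∀ v : (ι → ℝ) → (ι → ℝ), ContDiff ℝ 1 v → HasCompactSupport v →
      Integrable fun x => (ContinuousLinearMap.id ℝ (ι → ℝ) + fderiv ℝ v x).det - 1 := by
    intro v hv hc
    apply Continuous.integrable_of_hasCompactSupport
    · exact (ContinuousLinearMap.continuous_det.comp
        (continuous_const.add (hv.continuous_fderiv (by norm_num)))).sub continuous_const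
    · refine HasCompactSupport.intro hc.isCompact fun x hx => ?_
      have : fderiv ℝ v x = 0 :=
        image_eq_zero_of_notMem_tsupport fun h' => hx (tsupport_fderiv_subset ℝ h')
      simp [this, ContinuousLinearMap.det]
  have hsub := integral_sub (integ v2 hv2 hc2) (integ v1 hv1 hc1)
  rw [m1, m2, sub_zero] at hsub
  rw [← hsub]
  refine integral_congr_ae (Eventually.of_forall fun x => ?_)
  have hid : ∀ v : (ι → ℝ) → (ι → ℝ), ContDiff ℝ 1 v →
      ContinuousLinearMap.id ℝ (ι → ℝ) + fderiv ℝ v x = fderiv ℝ (fun y => y + v y) x := by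
    intro v hv
    exact ((hasFDerivAt_id x).add ((hv.differentiable (by norm_num)) x).hasFDerivAt).fderiv.symm
  simp only
  rw [hid v1 hv1, hid v2 hv2]
  by_cases hx : x ∈ tsupport fun x => g x - h x
  · have he : ∀ᶠ y in 𝓝 x, χ y = 1 := (eventually_nhdsSet_iff_forall.1 h1) x hx
    have e1 : (fun y => y + v1 y) =ᶠ[𝓝 x] h := he.mono fun y hy => by simp [v1, hy]
    have e2 : (fun y => y + v2 y) =ᶠ[𝓝 x] g := he.mono fun y hy => by simp [v2, v1, hy]
    rw [e1.fderiv_eq, e2.fderiv_eq]
    ring
  · have he : ∀ᶠ y in 𝓝 x, g y - h y = 0 := notMem_tsupport_iff_eventuallyEq.1 hx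
    have e1 : g =ᶠ[𝓝 x] h := he.mono fun y hy => sub_eq_zero.1 hy
    have e2 : (fun y => y + v2 y) =ᶠ[𝓝 x] (fun y => y + v1 y) :=
      he.mono fun y hy => by simp only [v2]; rw [hy, add_zero]
    rw [e1.fderiv_eq, e2.fderiv_eq]
    ring

end Vale.Agent.Lib.Degree
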